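import Vale.Agent.P235.H830.Asm
import Vale.Agent.P235.H786.CG
import Vale.Agent.P235.K5.W.H531.Dich

/-!
P235, line XC (helper531 #18916), row [X5] (helper831): a cross at a block of the grid.

Letters: a family `Y` of disjoint connected sets along the grid `Fin N × Fin N`; a block of size
`r + 2` which starts at the row `a` and the column `b`; its four arcs (without the corners).
-/

set_option autoImplicit false

namespace Vale.Agent.P235.XC.H831

open SimpleGraph Vale.Agent.P235.H134 Vale.Agent.P235.H56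
open Vale.Agent.P235.H830
open Vale.Agent.P235.H786 (rect rect_connected)
open Vale.Agent.P235.K5.W.H531 (Con Tch con_union)

section
variable {V : Type} {G : SimpleGraph V}

theorem tsymm {S T : Set V} (h : Touch G S T) : Touch G T S := by
  obtain ⟨x, hx, y, hy, h⟩ := h
  exact ⟨y, hy, x, hx, h.symm⟩

theorem tmono {S T S' T' : Set V} (h : Touch G S T) (hS : S ⊆ S') (hT : T ⊆ T') :
    Touch G S' T' := by
  obtain ⟨x, hx, y, hy, h⟩ := h
  exact ⟨x, hS hx, y, hT hy, h⟩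

/-- a connected set with two connected sets which touch it -/
theorem con3 {P A B : Set V} (hP : (G.induce P).Connected) (hA : (G.induce A).Connected)
    (hB : (G.induce B).Connected) (h1 : Touch G P A) (h2 : Touch G P B) :
    (G.induce (P ∪ A ∪ B)).Connected :=
  con_union (con_union hP hA h1) hB (tmono h2 (fun _ h => Or.inl h) le_rfl)

/-- sides of the `r × r` grid: `0` right, `1` bottom, `2` left, `3` top -/
def sd (r : ℕ) (i : Fin 4) (x : Fin r × Fin r) : Prop :=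
  (i = 0 ∧ x.2.val + 1 = r) ∨ (i = 1 ∧ x.1.val + 1 = r) ∨ (i = 2 ∧ x.2.val = 0) ∨
    (i = 3 ∧ x.1.val = 0)

/-- the model with a cross: `0` is `Q` with the arcs `1`, `3`; `1` is `P` with the arcs `0`, `2` -/
def mm (P Q : Set V) (A : Fin 4 → Set V) {r : ℕ} (Y : Fin r × Fin r → Set V) :
    Fin 2 ⊕ (Fin r × Fin r) → Set V
  | Sum.inl i => if i = 1 then P ∪ A 0 ∪ A 2 else Q ∪ A 1 ∪ A 3
  | Sum.inr x => Y x

theorem cross_arcs {r : ℕ} {Y : Fin r × Fin r → Set V} {A : Fin 4 → Set V} {P Q : Set V}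
    (hY : ∀ p, (G.induce (Y p)).Connected) (hYd : ∀ p q, p ≠ q → Disjoint (Y p) (Y q))
    (hYa : ∀ p q, (grid r).Adj p q → Touch G (Y p) (Y q))
    (hA : ∀ i, (G.induce (A i)).Connected) (hAd : ∀ i j, i ≠ j → Disjoint (A i) (A j))
    (hAY : ∀ i p, Disjoint (A i) (Y p)) (hAs : ∀ i p, sd r i p → Touch G (A i) (Y p))
    (hP : (G.induce P).Connected) (hQ : (G.induce Q).Connected) (hPQ : Disjoint P Q)
    (hPA : ∀ i, Disjoint P (A i)) (hQA : ∀ i, Disjoint Q (A i))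
    (hPY : ∀ p, Disjoint P (Y p)) (hQY : ∀ p, Disjoint Q (Y p))
    (h0 : Touch G P (A 0)) (h2 : Touch G P (A 2)) (h1 : Touch G Q (A 1)) (h3 : Touch G Q (A 3)) :
    (∀ a, (G.induce (mm P Q A Y a)).Connected) ∧
      (∀ a b, a ≠ b → Disjoint (mm P Q A Y a) (mm P Q A Y b)) ∧
      (∀ a b, (grid r).Adj a b → Touch G (mm P Q A Y (Sum.inr a)) (mm P Q A Y (Sum.inr b))) ∧
      (∀ x : Fin r × Fin r, (x.2.val = 0 ∨ x.2.val + 1 = r) →
        Touch G (mm P Q A Y (Sum.inl 1)) (mm P Q A Y (Sum.inr x))) ∧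
      (∀ x : Fin r × Fin r, (x.1.val = 0 ∨ x.1.val + 1 = r) →
        Touch G (mm P Q A Y (Sum.inl 0)) (mm P Q A Y (Sum.inr x))) := by
  have e0 : mm P Q A Y (Sum.inl 1) = P ∪ A 0 ∪ A 2 := by simp [mm]
  have e1 : mm P Q A Y (Sum.inl 0) = Q ∪ A 1 ∪ A 3 := by simp [mm]
  have e2 : ∀ x, mm P Q A Y (Sum.inr x) = Y x := fun x => rfl
  have d01 : Disjoint (P ∪ A 0 ∪ A 2) (Q ∪ A 1 ∪ A 3) := by
    simp only [Set.disjoint_union_left, Set.disjoint_union_right]
    exact ⟨⟨⟨⟨hPQ, (hQA 0).symm⟩, (hQA 2).symm⟩, ⟨hPA 1, hAd 0 1 (by decide)⟩,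
      hAd 2 1 (by decide)⟩, ⟨hPA 3, hAd 0 3 (by decide)⟩, hAd 2 3 (by decide)⟩
  have d0 : ∀ x, Disjoint (P ∪ A 0 ∪ A 2) (Y x) := by
    intro x
    simp only [Set.disjoint_union_left]
    exact ⟨⟨hPY x, hAY 0 x⟩, hAY 2 x⟩
  have d1 : ∀ x, Disjoint (Q ∪ A 1 ∪ A 3) (Y x) := by
    intro x
    simp only [Set.disjoint_union_left]
    exact ⟨⟨hQY x, hAY 1 x⟩, hAY 3 x⟩
  have f2 : ∀ i : Fin 2, i = 1 ∨ i = 0 := by decide
  refine ⟨?_, ?_, ?_, ?_, ?_⟩
  · rintro (i | x)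
    · rcases f2 i with rfl | rfl
      · rw [e0]; exact con3 hP (hA 0) (hA 2) h0 h2
      · rw [e1]; exact con3 hQ (hA 1) (hA 3) h1 h3
    · exact hY x
  · rintro (i | x) (j | y) hab
    · rcases f2 i with rfl | rfl <;> rcases f2 j with rfl | rfl
      · exact absurd rfl hab
      · rw [e0, e1]; exact d01
      · rw [e0, e1]; exact d01.symm
      · exact absurd rfl hab
    · rcases f2 i with rfl | rfl
      · rw [e0]; exact d0 y
      · rw [e1]; exact d1 y
    · rcases f2 j with rfl | rfl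
      · rw [e0]; exact (d0 x).symm
      · rw [e1]; exact (d1 x).symm
    · exact hYd x y (fun h => hab (by rw [h]))
  · exact hYa
  · intro x hx
    rw [e0, e2]
    rcases hx with hx | hx
    · exact tmono (hAs 2 x (Or.inr (Or.inr (Or.inl ⟨rfl, hx⟩)))) (fun _ h => Or.inr h) le_rfl
    · exact tmono (hAs 0 x (Or.inl ⟨rfl, hx⟩)) (fun _ h => Or.inl (Or.inr h)) le_rfl
  · intro x hx
    rw [e1, e2]
    rcases hx with hx | hx
    · exact tmono (hAs 3 x (Or.inr (Or.inr (Or.inr ⟨rfl, hx⟩)))) (fun _ h => Or.inr h) le_rfl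
    · exact tmono (hAs 1 x (Or.inr (Or.inl ⟨rfl, hx⟩))) (fun _ h => Or.inl (Or.inr h)) le_rfl

end

/-! ## The geometry of a block -/

/-- the arcs of the block of size `r + 2` at `(a, b)`: `0` right, `1` bottom, `2` left, `3` top -/
def arc (N r a b : ℕ) (i : Fin 4) : Set (Fin N × Fin N) :=
  if i = 0 then rect N (a + 1) (a + r + 1) (b + r + 1) (b + r + 2)
  else if i = 1 then rect N (a + r + 1) (a + r + 2) (b + 1) (b + r + 1)
  else if i = 2 then rect N (a + 1) (a + r + 1) b (b + 1)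
  else rect N a (a + 1) (b + 1) (b + r + 1)

/-- the interior of the block -/
def inr (N r a b : ℕ) (ha : a + r + 2 ≤ N) (hb : b + r + 2 ≤ N) (x : Fin r × Fin r) :
    Fin N × Fin N :=
  (⟨a + 1 + x.1.val, by have := x.1.isLt; omega⟩, ⟨b + 1 + x.2.val, by have := x.2.isLt; omega⟩)

theorem fin4 {p : Fin 4 → Prop} (h0 : p 0) (h1 : p 1) (h2 : p 2) (h3 : p 3) : ∀ i, p i := by
  intro i
  fin_cases i
  · exact h0
  · exact h1
  · exact h2
  · exact h3

section
variable {N r a b : ℕ}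

theorem arc0 : arc N r a b 0 = rect N (a + 1) (a + r + 1) (b + r + 1) (b + r + 2) := by
  simp [arc]
theorem arc1 : arc N r a b 1 = rect N (a + r + 1) (a + r + 2) (b + 1) (b + r + 1) := by
  simp [arc]
theorem arc2 : arc N r a b 2 = rect N (a + 1) (a + r + 1) b (b + 1) := by
  simp [arc]
theorem arc3 : arc N r a b 3 = rect N a (a + 1) (b + 1) (b + r + 1) := by
  simp [arc]

theorem arc_conn (hr : 1 ≤ r) (ha : a + r + 2 ≤ N) (hb : b + r + 2 ≤ N) :
    ∀ i, ((grid N).induce (arc N r a b i)).Connected := by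
  refine fin4 ?_ ?_ ?_ ?_
  · rw [arc0]; exact rect_connected (by omega) (by omega) (by omega) (by omega)
  · rw [arc1]; exact rect_connected (by omega) (by omega) (by omega) (by omega)
  · rw [arc2]; exact rect_connected (by omega) (by omega) (by omega) (by omega)
  · rw [arc3]; exact rect_connected (by omega) (by omega) (by omega) (by omega)

theorem rect_disj {a b c d a' b' c' d' : ℕ}
    (h : b ≤ a' ∨ b' ≤ a ∨ d ≤ c' ∨ d' ≤ c) : Disjoint (rect N a b c d) (rect N a' b' c' d') := by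
  rw [Set.disjoint_left]
  rintro x ⟨h1, h2, h3, h4⟩ ⟨g1, g2, g3, g4⟩
  omega

theorem arc_disj : ∀ i j, i ≠ j → Disjoint (arc N r a b i) (arc N r a b j) := by
  have h01 : Disjoint (arc N r a b 0) (arc N r a b 1) := by
    rw [arc0, arc1]; exact rect_disj (by omega)
  have h02 : Disjoint (arc N r a b 0) (arc N r a b 2) := by
    rw [arc0, arc2]; exact rect_disj (by omega)
  have h03 : Disjoint (arc N r a b 0) (arc N r a b 3) := by
    rw [arc0, arc3]; exact rect_disj (by omega)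
  have h12 : Disjoint (arc N r a b 1) (arc N r a b 2) := by
    rw [arc1, arc2]; exact rect_disj (by omega)
  have h13 : Disjoint (arc N r a b 1) (arc N r a b 3) := by
    rw [arc1, arc3]; exact rect_disj (by omega)
  have h23 : Disjoint (arc N r a b 2) (arc N r a b 3) := by
    rw [arc2, arc3]; exact rect_disj (by omega)
  refine fin4 (fin4 ?_ ?_ ?_ ?_) (fin4 ?_ ?_ ?_ ?_) (fin4 ?_ ?_ ?_ ?_) (fin4 ?_ ?_ ?_ ?_)
  · exact fun h => absurd rfl h
  · exact fun _ => h01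
  · exact fun _ => h02
  · exact fun _ => h03
  · exact fun _ => h01.symm
  · exact fun h => absurd rfl h
  · exact fun _ => h12
  · exact fun _ => h13
  · exact fun _ => h02.symm
  · exact fun _ => h12.symm
  · exact fun h => absurd rfl h
  · exact fun _ => h23
  · exact fun _ => h03.symm
  · exact fun _ => h13.symm
  · exact fun _ => h23.symm
  · exact fun h => absurd rfl h

theorem inr_notMem (ha : a + r + 2 ≤ N) (hb : b + r + 2 ≤ N) :
    ∀ (i : Fin 4) (x : Fin r × Fin r), inr N r a b ha hb x ∉ arc N r a b i := by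
  have e1 : ∀ x : Fin r × Fin r, (inr N r a b ha hb x).1.val = a + 1 + x.1.val := fun _ => rfl
  have e2 : ∀ x : Fin r × Fin r, (inr N r a b ha hb x).2.val = b + 1 + x.2.val := fun _ => rfl
  refine fin4 ?_ ?_ ?_ ?_
  · intro x hx
    rw [arc0] at hx
    obtain ⟨g1, g2, g3, g4⟩ := hx
    have h1 := x.1.isLt; have h2 := x.2.isLt; have := e1 x; have := e2 x
    omega
  · intro x hx
    rw [arc1] at hx
    obtain ⟨g1, g2, g3, g4⟩ := hx
    have h1 := x.1.isLt; have h2 := x.2.isLt; have := e1 x; have := e2 x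
    omega
  · intro x hx
    rw [arc2] at hx
    obtain ⟨g1, g2, g3, g4⟩ := hx
    have h1 := x.1.isLt; have h2 := x.2.isLt; have := e1 x; have := e2 x
    omega
  · intro x hx
    rw [arc3] at hx
    obtain ⟨g1, g2, g3, g4⟩ := hx
    have h1 := x.1.isLt; have h2 := x.2.isLt; have := e1 x; have := e2 x
    omega

theorem inr_inj (ha : a + r + 2 ≤ N) (hb : b + r + 2 ≤ N) :
    Function.Injective (inr N r a b ha hb) := by
  intro p q h
  have h1 := congrArg (fun x => x.1.val) h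
  have h2 := congrArg (fun x => x.2.val) h
  simp only [inr] at h1 h2
  exact Prod.ext (Fin.ext (by omega)) (Fin.ext (by omega))

theorem inr_adj (ha : a + r + 2 ≤ N) (hb : b + r + 2 ≤ N) {p q : Fin r × Fin r}
    (h : (grid r).Adj p q) : (grid N).Adj (inr N r a b ha hb p) (inr N r a b ha hb q) := by
  rw [H786.grid_adj] at h ⊢
  simp only [inr, Fin.ext_iff] at h ⊢
  omega

theorem arc_side (ha : a + r + 2 ≤ N) (hb : b + r + 2 ≤ N) :
    ∀ (i : Fin 4) (x : Fin r × Fin r), sd r i x →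
      Touch (grid N) (arc N r a b i) {inr N r a b ha hb x} := by
  intro i x h
  have h1 := x.1.isLt
  have h2 := x.2.isLt
  rcases h with ⟨rfl, h⟩ | ⟨rfl, h⟩ | ⟨rfl, h⟩ | ⟨rfl, h⟩
  · rw [arc0]
    refine ⟨(⟨a + 1 + x.1.val, by omega⟩, ⟨b + r + 1, by omega⟩), ?_, _, rfl, ?_⟩
    · refine ⟨?_, ?_, ?_, ?_⟩ <;> simp only <;> omega
    · exact (H786.grid_adj _ _).2 (Or.inr ⟨Or.inr (by simp only [inr]; omega), rfl⟩)
  · rw [arc1]
    refine ⟨(⟨a + r + 1, by omega⟩, ⟨b + 1 + x.2.val, by omega⟩), ?_, _, rfl, ?_⟩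
    · refine ⟨?_, ?_, ?_, ?_⟩ <;> simp only <;> omega
    · exact (H786.grid_adj _ _).2 (Or.inl ⟨Or.inr (by simp only [inr]; omega), rfl⟩)
  · rw [arc2]
    refine ⟨(⟨a + 1 + x.1.val, by omega⟩, ⟨b, by omega⟩), ?_, _, rfl, ?_⟩
    · refine ⟨?_, ?_, ?_, ?_⟩ <;> simp only <;> omega
    · exact (H786.grid_adj _ _).2 (Or.inr ⟨Or.inl (by simp only [inr]; omega), rfl⟩)
  · rw [arc3]
    refine ⟨(⟨a, by omega⟩, ⟨b + 1 + x.2.val, by omega⟩), ?_, _, rfl, ?_⟩
    · refine ⟨?_, ?_, ?_, ?_⟩ <;> simp only <;> omega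
    · exact (H786.grid_adj _ _).2 (Or.inl ⟨Or.inl (by simp only [inr]; omega), rfl⟩)

end

/-- **(X5), pure form.** `Y` along the grid `N`, a block of size `r + 2` at `(a, b)`, a cross `P`,
`Q` off the four arcs and the inner grid. -/
theorem cross_pure {V : Type} {G : SimpleGraph V} {N r a b : ℕ} (hr : 1 ≤ r)
    (ha : a + r + 2 ≤ N) (hb : b + r + 2 ≤ N) {Y : Fin N × Fin N → Set V}
    (hY : ∀ p, (G.induce (Y p)).Connected) (hYd : ∀ p q, p ≠ q → Disjoint (Y p) (Y q))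
    (hYa : ∀ p q, (grid N).Adj p q → ∃ x ∈ Y p, ∃ y ∈ Y q, G.Adj x y) {P Q : Set V}
    (hP : (G.induce P).Connected) (hQ : (G.induce Q).Connected) (hPQ : Disjoint P Q)
    (hPY : ∀ x : Fin N × Fin N, a ≤ x.1.val → x.1.val < a + r + 2 → b ≤ x.2.val →
      x.2.val < b + r + 2 → Disjoint P (Y x))
    (hQY : ∀ x : Fin N × Fin N, a ≤ x.1.val → x.1.val < a + r + 2 → b ≤ x.2.val →
      x.2.val < b + r + 2 → Disjoint Q (Y x))
    (h0 : ∃ x ∈ arc N r a b 0, Touch G P (Y x)) (h1 : ∃ x ∈ arc N r a b 1, Touch G Q (Y x))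
    (h2 : ∃ x ∈ arc N r a b 2, Touch G P (Y x)) (h3 : ∃ x ∈ arc N r a b 3, Touch G Q (Y x)) :
    ∃ μ : Fin 2 ⊕ (Fin r × Fin r) → Set V,
      (∀ i, (G.induce (μ i)).Connected) ∧ (∀ i j, i ≠ j → Disjoint (μ i) (μ j)) ∧
      (∀ x y, (grid r).Adj x y → Touch G (μ (Sum.inr x)) (μ (Sum.inr y))) ∧
      (∀ x : Fin r × Fin r, (x.2.val = 0 ∨ x.2.val + 1 = r) →
        Touch G (μ (Sum.inl 1)) (μ (Sum.inr x))) ∧
      (∀ x : Fin r × Fin r, (x.1.val = 0 ∨ x.1.val + 1 = r) →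
        Touch G (μ (Sum.inl 0)) (μ (Sum.inr x))) := by
  have hin : ∀ (i : Fin 4) (x : Fin N × Fin N), x ∈ arc N r a b i →
      a ≤ x.1.val ∧ x.1.val < a + r + 2 ∧ b ≤ x.2.val ∧ x.2.val < b + r + 2 := by
    refine fin4 ?_ ?_ ?_ ?_
    · intro x hx; rw [arc0] at hx; obtain ⟨g1, g2, g3, g4⟩ := hx; omega
    · intro x hx; rw [arc1] at hx; obtain ⟨g1, g2, g3, g4⟩ := hx; omega
    · intro x hx; rw [arc2] at hx; obtain ⟨g1, g2, g3, g4⟩ := hx; omega
    · intro x hx; rw [arc3] at hx; obtain ⟨g1, g2, g3, g4⟩ := hx; omega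
  have htouch : ∀ (i : Fin 4) (S : Set V), (∃ x ∈ arc N r a b i, Touch G S (Y x)) →
      Touch G S (UU Y (arc N r a b i)) := by
    rintro i S ⟨x, hx, h⟩
    exact tmono h le_rfl (sub_UU hx)
  have hoff : ∀ (S : Set V), (∀ x : Fin N × Fin N, a ≤ x.1.val → x.1.val < a + r + 2 →
      b ≤ x.2.val → x.2.val < b + r + 2 → Disjoint S (Y x)) →
      ∀ i, Disjoint S (UU Y (arc N r a b i)) := by
    intro S hS i
    refine (UU_disj' fun x hx => ?_).symm
    obtain ⟨g1, g2, g3, g4⟩ := hin i x hx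
    exact (hS x g1 g2 g3 g4).symm
  have hoff' : ∀ (S : Set V), (∀ x : Fin N × Fin N, a ≤ x.1.val → x.1.val < a + r + 2 →
      b ≤ x.2.val → x.2.val < b + r + 2 → Disjoint S (Y x)) →
      ∀ x : Fin r × Fin r, Disjoint S (Y (inr N r a b ha hb x)) := by
    intro S hS x
    have g1 := x.1.isLt
    have g2 := x.2.isLt
    refine hS _ ?_ ?_ ?_ ?_ <;> simp only [inr] <;> omega
  have hm := cross_arcs (G := G) (r := r) (Y := fun x => Y (inr N r a b ha hb x))
    (A := fun i => UU Y (arc N r a b i)) (P := P) (Q := Q)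
    (fun x => hY _) (fun x y hxy => hYd _ _ fun h => hxy (inr_inj ha hb h))
    (fun x y hxy => hYa _ _ (inr_adj ha hb hxy))
    (fun i => UU_conn hY hYa (arc_conn hr ha hb i))
    (fun i j hij => UU_disj hYd (arc_disj i j hij))
    (fun i x => UU_disj' fun y hy => hYd _ _ fun h => inr_notMem ha hb i x (h ▸ hy))
    (fun i x hx => by
      obtain ⟨y, hy, z, rfl, hyz⟩ := arc_side ha hb i x hx
      obtain ⟨u, hu, v, hv, huv⟩ := hYa _ _ hyz
      exact ⟨u, sub_UU hy hu, v, hv, huv⟩)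
    hP hQ hPQ (hoff P hPY) (hoff Q hQY) (hoff' P hPY) (hoff' Q hQY)
    (htouch 0 P h0) (htouch 2 P h2) (htouch 1 Q h1) (htouch 3 Q h3)
  exact ⟨_, hm⟩

end Vale.Agent.P235.XC.H831
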