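import Vale.Agent.P235.XC.Defs
import Vale.Agent.P235.XC.H831.Arcs

/-! P235, line XC, row [X5] (helper831): `CrossTXStmt`, a cross around a block gives `TX r`. -/

set_option autoImplicit false

namespace Vale.Agent.P235.XC.H831

open SimpleGraph Vale.Agent.P235.H134 Vale.Agent.P235.H56 Vale.Agent.P235.XC
open Vale.Agent.P235.H830 (Touch UU sub_UU UU_conn UU_disj UU_disj')
open Vale.Agent.P235.K5.W.H531 (Con Tch)

/-- a model of `TX r` -/
theorem tx_of_model {V : Type} {G : SimpleGraph V} {r : ℕ} (μ : Fin 2 ⊕ (Fin r × Fin r) → Set V)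
    (h : (∀ i, (G.induce (μ i)).Connected) ∧ (∀ i j, i ≠ j → Disjoint (μ i) (μ j)) ∧
      (∀ x y, (grid r).Adj x y → Touch G (μ (Sum.inr x)) (μ (Sum.inr y))) ∧
      (∀ x : Fin r × Fin r, (x.2.val = 0 ∨ x.2.val + 1 = r) →
        Touch G (μ (Sum.inl 1)) (μ (Sum.inr x))) ∧
      (∀ x : Fin r × Fin r, (x.1.val = 0 ∨ x.1.val + 1 = r) →
        Touch G (μ (Sum.inl 0)) (μ (Sum.inr x)))) : IsMinor (TX r) G := by
  obtain ⟨hc, hd, hg, h2, h1⟩ := h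
  refine ⟨μ, hc, hd, ?_⟩
  have key : ∀ u v, ((∃ x : Fin r × Fin r, (x.1.val = 0 ∨ x.1.val + 1 = r) ∧ u = Sum.inl 0 ∧
      v = Sum.inr x) ∨ (∃ x : Fin r × Fin r, (x.2.val = 0 ∨ x.2.val + 1 = r) ∧ u = Sum.inl 1 ∧
      v = Sum.inr x) ∨ ∃ x y : Fin r × Fin r, (grid r).Adj x y ∧ u = Sum.inr x ∧
      v = Sum.inr y) → Touch G (μ u) (μ v) := by
    rintro u v (⟨x, hx, rfl, rfl⟩ | ⟨x, hx, rfl, rfl⟩ | ⟨x, y, hxy, rfl, rfl⟩)
    · exact h1 x hx
    · exact h2 x hx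
    · exact hg x y hxy
  intro u v huv
  rcases (fromRel_adj _ _ _).1 huv with ⟨-, h | h⟩
  · exact key u v h
  · exact tsymm (key v u h)

/-- **[X5]** -/
theorem crossTX : CrossTXStmt := by
  intro V G r k x inn Y v hr hg hY hYd hYa hv hC
  obtain ⟨P, Q, cP, cQ, dPQ, dPB, dQB, p0, p2, q1, q3⟩ := hC
  have hsub : ∀ i, UU Y (arcX r k i) ⊆ UY Y (blkX r k) := fun i =>
    Vale.Agent.P235.H830.UU_mono (Y := Y) (fun p hp => hp.1)
  have hin : ∀ p : Fin r × Fin r, Y (inn p) ⊆ UY Y (blkX r k) := fun p =>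
    sub_UU (Y := Y) (hg.inn_blk p)
  have hst : ∀ (i : Fin 4) (p : Fin r × Fin r),
      (∃ q ∈ arcX r k i, (grid (RX r)).Adj (inn p) q) →
      Touch G (UU Y (arcX r k i)) (Y (inn p)) := by
    rintro i p ⟨q, hq, hpq⟩
    obtain ⟨a, ha, b, hb, hab⟩ := hYa _ _ hpq
    exact ⟨b, sub_UU hq hb, a, ha, hab.symm⟩
  have htv : ∀ (i : Fin 4) (S : Set V), v i ∈ S → Touch G S (UU Y (arcX r k i)) := by
    intro i S hS
    obtain ⟨u, hu, h⟩ := hv i
    exact ⟨_, hS, u, hu, h⟩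
  refine tx_of_model _ (cross_arcs (G := G) (r := r) (Y := fun p => Y (inn p))
    (A := fun i => UU Y (arcX r k i)) (P := P) (Q := Q)
    (fun p => hY _) (fun p q h => hYd _ _ fun e => h (hg.inn_inj e))
    (fun p q h => hYa _ _ (hg.inn_adj p q h))
    (fun i => UU_conn hY hYa (hg.arc_conn i)) (fun i j h => UU_disj hYd (hg.arc_disj i j h))
    (fun i p => UU_disj' fun q hq => hYd _ _ fun e => hg.inn_arc p i (e ▸ hq)) ?_
    cP cQ dPQ (fun i => dPB.mono_right (hsub i)) (fun i => dQB.mono_right (hsub i))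
    (fun p => dPB.mono_right (hin p)) (fun p => dQB.mono_right (hin p))
    (htv 0 P p0) (htv 2 P p2) (htv 1 Q q1) (htv 3 Q q3))
  intro i p hp
  rcases hp with ⟨rfl, h⟩ | ⟨rfl, h⟩ | ⟨rfl, h⟩ | ⟨rfl, h⟩
  · exact hst 0 p (hg.inn_0 p h)
  · exact hst 1 p (hg.inn_1 p h)
  · exact hst 2 p (hg.inn_2 p h)
  · exact hst 3 p (hg.inn_3 p h)

end Vale.Agent.P235.XC.H831
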