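import Vale.Agent.P235.XC.H831.Cross
import Vale.Agent.P235.XC.H831.GGeo
import Vale.Agent.P235.XC.H831.GX4
import Vale.Agent.P235.XC.H337.CDefs

/-! P235, line XC (helper831): the geometry of the blocks and the minor `TX r`, in the letters of
helper337's core. -/

set_option autoImplicit false

namespace Vale.Agent.P235.XC.H831

open SimpleGraph Vale.Agent.P235.H134 Vale.Agent.P235.H56
open Vale.Agent.P235.H830 (Touch UU sub_UU UU_conn UU_disj UU_disj' UU_mono side)
open Vale.Agent.P235.H786 (rect)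

theorem arc_blx {r : ℕ} (k : Fin 64) : ∀ i,
    arc (G.RX r) r (G.stx r k.val) (G.stx r k.val) i ⊆ G.blx r k := by
  have h := G.stx_succ r k.val
  refine fin4 ?_ ?_ ?_ ?_
  · rw [arc0]; rintro x ⟨g1, g2, g3, g4⟩; exact ⟨by omega, by omega, by omega, by omega⟩
  · rw [arc1]; rintro x ⟨g1, g2, g3, g4⟩; exact ⟨by omega, by omega, by omega, by omega⟩
  · rw [arc2]; rintro x ⟨g1, g2, g3, g4⟩; exact ⟨by omega, by omega, by omega, by omega⟩
  · rw [arc3]; rintro x ⟨g1, g2, g3, g4⟩; exact ⟨by omega, by omega, by omega, by omega⟩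

theorem stx_bd {r : ℕ} (k : Fin 64) : G.stx r k.val + r + 2 ≤ G.RX r := by
  have h := G.stx_succ r k.val
  have h' := G.stx_le r k
  omega

theorem rt_arc {r : ℕ} (hr : 1 ≤ r) (k : Fin 64) : ∀ i,
    Touch (grid (G.RX r)) {G.rt r k i} (arc (G.RX r) r (G.stx r k.val) (G.stx r k.val) i) := by
  have h := G.stx_succ r k.val
  have h' := G.stx_le r k
  have h5 := G.le_stx r k.val
  refine fin4 ?_ ?_ ?_ ?_
  · rw [arc0]
    refine ⟨_, rfl, (⟨G.stx r k.val + 1, by omega⟩, ⟨G.stx r k.val + r + 1, by omega⟩),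
      ⟨by simp only; omega, by simp only; omega, by simp only; omega, by simp only; omega⟩, ?_⟩
    rw [H786.grid_adj]
    refine Or.inr ⟨Or.inr ?_, rfl⟩
    show G.stx r k.val + r + 1 + 1 = G.stx r (k.val + 1)
    omega
  · rw [arc1]
    refine ⟨_, rfl, (⟨G.stx r k.val + r + 1, by omega⟩, ⟨G.stx r k.val + 1, by omega⟩),
      ⟨by simp only; omega, by simp only; omega, by simp only; omega, by simp only; omega⟩, ?_⟩
    rw [H786.grid_adj]
    refine Or.inl ⟨Or.inr ?_, rfl⟩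
    show G.stx r k.val + r + 1 + 1 = G.stx r (k.val + 1)
    omega
  · rw [arc2]
    refine ⟨_, rfl, (⟨G.stx r k.val + 1, by omega⟩, ⟨G.stx r k.val, by omega⟩),
      ⟨by simp only; omega, by simp only; omega, by simp only; omega, by simp only; omega⟩, ?_⟩
    rw [H786.grid_adj]
    refine Or.inr ⟨Or.inl ?_, rfl⟩
    show G.stx r k.val - 1 + 1 = G.stx r k.val
    omega
  · rw [arc3]
    refine ⟨_, rfl, (⟨G.stx r k.val, by omega⟩, ⟨G.stx r k.val + 1, by omega⟩),
      ⟨by simp only; omega, by simp only; omega, by simp only; omega, by simp only; omega⟩, ?_⟩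
    rw [H786.grid_adj]
    refine Or.inl ⟨Or.inl ?_, rfl⟩
    show G.stx r k.val - 1 + 1 = G.stx r k.val
    omega

/-- a cross at a block gives `TX r`, in the letters of helper337 -/
theorem x5At {r : ℕ} (hr : 1 ≤ r) : H337.X5At (TX r) (G.RX r) (G.blx r)
    (fun k i => arc (G.RX r) r (G.stx r k.val) (G.stx r k.val) i) := by
  intro V Gr Y hY hYd hYa k P Q cP cQ dPQ dPB dQB h0 h2 h1 h3
  have hb := stx_bd (r := r) k
  have hs := G.stx_succ r k.val
  have hin : ∀ p : Fin r × Fin r, inr (G.RX r) r (G.stx r k.val) (G.stx r k.val) hb hb p ∈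
      G.blx r k := by
    intro p
    have g1 := p.1.isLt
    have g2 := p.2.isLt
    refine ⟨?_, ?_, ?_, ?_⟩ <;> simp only [inr] <;> omega
  refine tx_of_model _ (cross_arcs (G := Gr) (r := r)
    (Y := fun p => Y (inr (G.RX r) r (G.stx r k.val) (G.stx r k.val) hb hb p))
    (A := fun i => UU Y (arc (G.RX r) r (G.stx r k.val) (G.stx r k.val) i)) (P := P) (Q := Q)
    (fun p => hY _) (fun p q h => hYd _ _ fun e => h (inr_inj hb hb e))
    (fun p q h => hYa _ _ (inr_adj hb hb h))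
    (fun i => UU_conn hY hYa (arc_conn hr hb hb i))
    (fun i j h => UU_disj hYd (arc_disj i j h))
    (fun i p => UU_disj' fun q hq => hYd _ _ fun e => inr_notMem hb hb i p (e ▸ hq)) ?_
    cP cQ dPQ (fun i => dPB.mono_right (UU_mono (arc_blx k i)))
    (fun i => dQB.mono_right (UU_mono (arc_blx k i)))
    (fun p => dPB.mono_right (sub_UU (hin p))) (fun p => dQB.mono_right (sub_UU (hin p)))
    h0 h2 h1 h3)
  intro i p hp
  obtain ⟨y, hy, z, rfl, hyz⟩ := arc_side hb hb i p hp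
  obtain ⟨u, hu, v, hv, huv⟩ := hYa _ _ hyz
  exact ⟨u, sub_UU hy hu, v, hv, huv⟩

/-- the geometry of the blocks -/
theorem blkG {r : ℕ} (hr : 1 ≤ r) : H337.Blk (G.RX r) (G.blx r)
    (fun k i => arc (G.RX r) r (G.stx r k.val) (G.stx r k.val) i) (G.rt r) (G.lin r) := by
  refine ⟨fun k l h => G.blx_disj h, G.blx_card, fun k i => rt_arc hr k i, G.rt_mem,
      G.lin_conn, G.lin_blx, fun k i j h => G.lin_disj hr k i j h, ?_, ?_⟩
  · intro k i
    obtain ⟨p, h1, h2⟩ := G.lin_side (r := r) k i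
    exact ⟨p, h1, h2⟩
  · intro k l hkl T hT hTk hTl
    obtain ⟨Z, z1, z2, z3, z4, i, z5⟩ := G.x4Grid r hr k l hkl T hT hTk hTl
    exact ⟨i, Z, z1, z5, z2, z3, z4⟩

/-- **[X9] + [X4] + [X5]** -/
theorem blkAll (r : ℕ) (hr : 1 ≤ r) : ∃ (s : ℕ) (blk : Fin 64 → Set (Fin s × Fin s))
    (arc : Fin 64 → Fin 4 → Set (Fin s × Fin s)) (rt : Fin 64 → Fin 4 → Fin s × Fin s)
    (ln : Fin 64 → Fin 4 → Set (Fin s × Fin s)), 2 ≤ s ∧ H337.Blk s blk arc rt ln ∧
      H337.X5At (TX r) s blk arc :=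
  ⟨G.RX r, G.blx r, fun k i => arc (G.RX r) r (G.stx r k.val) (G.stx r k.val) i, G.rt r,
    G.lin r, by unfold G.RX; omega, blkG hr, x5At hr⟩

end Vale.Agent.P235.XC.H831
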