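import Vale.Agent.P235.XC.H337.Core
import Vale.Agent.P235.XC.H831.BlkAll
import Vale.Agent.P235.XC.H237.Mono
import Vale.Agent.P235.XC.H531.X1

/-! P235, line XC, [X9] (plug by helper831): `CoreStmt` from helper337's core, helper531's cross
lemma, helper710's and helper456's geometry, helper237's monotonicity. No hypothesis. -/

set_option autoImplicit false

namespace Vale.Agent.P235.XC.H831

open SimpleGraph Vale.Agent.P235.H134 Vale.Agent.P235.H56

theorem x1 : H337.X1Stmt := by
  intro V _ Gr B N M x cN cM dN dM dNM bN bM t x0 x1 _ x2 x3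
  rcases H531.cross V Gr B x N M
    ⟨cN, cM, dN, dM 0 1 (by decide), dNM, bN, bM, t, x0, x1, x2, x3⟩ with h | h
  · exact Or.inl h
  · obtain ⟨S, D, hS, hM, hD, -, hx, hn⟩ := h
    exact Or.inr ⟨D, S, hS, fun v hv => hM (Or.inl hv), fun v hv => hM (Or.inr hv), hD, hx, hn⟩

theorem core : CoreStmt := by
  intro r hr V _ Gr h3 h4 hm
  have h : IsMinor (TX (r + 4)) Gr :=
    H337.core_q x1 (blkG (r := r + 4) (by omega)) (x5At (r := r + 4) (by omega)) h3 h4 hm
  exact minor_trans (H237.mono (by omega)) h

end Vale.Agent.P235.XC.H831
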